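import Vale.Agent.P153.Seal.Stm2
import Vale.Agent.P153.Wick.Emb
import Vale.Agent.P153.Wick.Dl

/-! P153, module Seal: asymptotic harmonicity in the form used by the field part. -/

open Set Filter Topology Metric

namespace Vale.Agent.P153.Seal

namespace HarW

theorem fin {φ : ℂ → ℝ} (hφ : tsupport φ ⊆ ball 0 1) {δ : ℝ} (h0 : 0 < δ) :
    (Function.support (Vale.P153.Spec.lap fun v => φ (δ * emb v))).Finite := by
  refine (hex_finite 0 ⌈6 / 5 * (2 + 1 / δ)⌉₊).subset fun y hy => ?_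
  obtain ⟨z, hz, h1⟩ := Wick.Dl.supp h0 hy
  have h2 : ‖z‖ < 1 := mem_ball_zero_iff.1 (hφ (subset_tsupport _ hz))
  have h3 : δ * ‖emb y‖ ≤ 2 * δ + 1 := by
    have := norm_sub_norm_le ((δ : ℂ) * emb y) z
    rw [norm_sub_rev, Wick.Emb.scale h0] at this
    linarith
  have h4 : ‖emb y‖ ≤ 2 + 1 / δ := by
    rw [← mul_le_mul_iff_right₀ h0, mul_add, mul_one_div_cancel h0.ne']
    linarith
  have h5 := Wick.Emb.le_norm y
  rw [mem_hex, sub_zero, ← Nat.cast_le (α := ℝ)]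
  exact (h5.trans (by linarith)).trans (Nat.le_ceil _)

theorem bij (F S : Set V) (x : V) :
    BijOn (fun H : Cfg => H ∘ tr x) (dob F S) (dob (tr x ⁻¹' F) (tr x ⁻¹' S)) := by
  refine ⟨fun H h => ⟨fun a b hab => h.1 _ _ ((isSym_tr x a b).2 hab), fun y hy => h.2 _ hy⟩,
    fun H _ K _ h => ?_, fun K h => ⟨K ∘ (tr x).symm, ⟨fun a b hab => h.1 _ _ ?_, fun y hy => ?_⟩,
      ?_⟩⟩
  · funext y
    have := congrFun h ((tr x).symm y)
    simpa only [Function.comp_apply, Equiv.apply_symm_apply] using this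
  · rw [← isSym_tr x, Equiv.apply_symm_apply, Equiv.apply_symm_apply]
    exact hab
  · have := h.2 ((tr x).symm y) (by rwa [mem_preimage, Equiv.apply_symm_apply])
    rwa [mem_preimage, Equiv.apply_symm_apply] at this
  · funext y
    simp only [Function.comp_apply, Equiv.symm_apply_apply]

theorem mem_hex_tr (x y : V) (n : ℕ) : tr x y ∈ hex x n ↔ y ∈ hex 0 n := by
  simp only [mem_hex, tr, Equiv.coe_addRight, add_sub_cancel_right, sub_zero]

end HarW

open HarW in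
theorem harW (h1 : Har) (h2 : Bridge) : Wick.L_har := by
  refine ⟨400, fun δ hδ h0 φ hφ L ε hε => ?_⟩
  obtain ⟨hT, hM⟩ := h2 δ hδ h0 φ (hφ.1.of_le (WithTop.coe_le_coe.2 (le_top (a := (4 : ℕ∞)))))
    hφ.2.2 (fun n => Finsupp.ofSupportFinite _ (fin hφ.2.2 (hδ n))) fun n y => rfl
  filter_upwards [h1 _ _ hT hM ε hε ⌈L⌉₊, h0.eventually (gt_mem_nhds one_pos)] with n hn hδ1
  intro F S x R R' a G _ hR hR' hF hF' ha hG
  have hd := hδ n
  have e : a = Finsupp.ofSupportFinite _ (fin hφ.2.2 (hδ n)) := Finsupp.ext ha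
  obtain ⟨s, hs⟩ : ∃ s, s = 2 * (⌈1 / δ n⌉₊ + 3) := ⟨_, rfl⟩
  rw [← hs, ← e] at hn
  have c1 : 1 ≤ δ n * ⌈1 / δ n⌉₊ := by
    have := mul_le_mul_of_nonneg_left (Nat.le_ceil (1 / δ n)) hd.le
    rwa [mul_one_div_cancel hd.ne'] at this
  have c2 : δ n * ⌈1 / δ n⌉₊ ≤ 1 + δ n := by
    have := mul_le_mul_of_nonneg_left (Nat.ceil_lt_add_one (one_div_pos.2 hd).le).le hd.le
    rwa [mul_add, mul_one_div_cancel hd.ne', mul_one] at this
  have c3 : δ n * s = 2 * (δ n * ⌈1 / δ n⌉₊) + 6 * δ n := by rw [hs]; push_cast; ring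
  have hs1 : 40 * s ≤ R := by
    rw [← Nat.cast_le (α := ℝ), ← mul_le_mul_iff_right₀ hd]
    push_cast
    linarith
  have hs2 : R' ≤ ⌈L⌉₊ * s := by
    rw [← Nat.cast_le (α := ℝ), ← mul_le_mul_iff_right₀ hd]
    push_cast
    have := Nat.le_ceil L
    have h3 : (0 : ℝ) ≤ ⌈L⌉₊ := Nat.cast_nonneg _
    nlinarith
  have key := hn (tr x ⁻¹' F) (tr x ⁻¹' S) (fun K => G (K ∘ (tr x).symm))
    (fun y hy => hF ((mem_hex_tr x y R).2 (hex_mono hs1 hy)))
    (fun y hy => hex_mono hs2 ((mem_hex_tr x y R').1 (hF' hy))) (fun H => hG.2 _)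
    fun H H' h => hG.1 _ _ fun y hy => h _ fun hq => hy (by
      have := (mem_hex_tr x _ R).2 (hex_mono (show 2 * (16 * s) ≤ R by omega) (rh_subset_hex hq))
      rwa [Equiv.apply_symm_apply] at this)
  rw [← Ex_bij (bij F S x)] at key
  simpa only [Function.comp_assoc, Equiv.self_comp_symm, Function.comp_id] using key

end Vale.Agent.P153.Seal
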