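import Vale.Agent.P153.Seal.BadB
import Vale.Agent.P153.Seal.Bridge
import Vale.Agent.P153.Seal.CellB
import Vale.Agent.P153.Seal.CellL
import Vale.Agent.P153.Seal.Cov
import Vale.Agent.P153.Seal.CovNum
import Vale.Agent.P153.Seal.Cross
import Vale.Agent.P153.Seal.Ct0
import Vale.Agent.P153.Seal.Ct2
import Vale.Agent.P153.Seal.CtDob
import Vale.Agent.P153.Seal.GoodLLN
import Vale.Agent.P153.Seal.GstarQ
import Vale.Agent.P153.Seal.Har
import Vale.Agent.P153.Seal.HarW
import Vale.Agent.P153.Seal.Hnu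
import Vale.Agent.P153.Seal.LLN
import Vale.Agent.P153.Seal.Pie1
import Vale.Agent.P153.Seal.ProdL
import Vale.Agent.P153.Seal.RBar
import Vale.Agent.P153.Seal.ReachL
import Vale.Agent.P153.Seal.RefL
import Vale.Agent.P153.Seal.Shifts
import Vale.Agent.P153.Seal.Swap
import Vale.Agent.P153.Seal.X2
import Vale.Agent.P153.Seal.ZoneGeo
import Vale.Agent.P153.Seal.ZoneL
import Vale.Agent.P153.Nu.Main

/-! The module Seal of P153: asymptotic harmonicity from the inputs. -/

namespace Vale.Agent.P153.Seal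

theorem l_har (lm : LevMu) (ld : LevDob) (sc : Scr) (gs : Gstar) (sn : Scrn) (tm : Tvm) (de : Dec)
    (m4 : M4Mu) (m4d : M4Dob) (tv : Nu.TVI) (vs : Nu.VSub) (m2 : Nu.M2) : Wick.L_har := by
  have hu := hexU hexL
  have kl := kapL hu
  have cl := cellL reachL
  have zg := zoneGeo reachL
  have x := x2 m4 m4d
  have c0 := ct0 sc gs sn reachL
  have p2 := pie2 refL (shifts de m4) (pie1 (prodL locF) (ct2 c0 lm hu) depX locF x) x
  have cb := cellB zg (zoneL (cross count monoD reachL locB) reachL locB) rBar swap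
    (rLow (scrC sc) zg rBar reachL kl cl) (gstarQ gs) cl
  have cv := cov (goodLLN lln sn gs tm kl normL) (badB lm hu kl normL) (badBar cl) cb covNum cl
    normL
  exact harW (har (hnu p2 cv x depX locF normL cl) (ctDob c0 ld) x depX locF)
    (bridge (Nu.moves tv vs m2) tv (Nu.nu_all tv) Nu.s_loc)

end Vale.Agent.P153.Seal
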